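import Mathlib

/-!
Key algebraic lemma for the circulant Hadamard conjecture.

If `f * g = p ^ k * c` in `O[X] / (X ^ (p ^ k) - 1)` with `p` prime in the domain `O` and `p ∤ c`,
then modulo `X ^ p - 1` the polynomial `f` is `p ^ s` times a polynomial whose value at one is
not divisible by `p`.
-/

namespace Vale.Agent.P033

open Polynomial

lemma monic_dvd_of_dvd_C_mul {O : Type*} [CommRing O] [IsDomain O] {M W : O[X]} (hM : M.Monic)
    {a : O} (ha : a ≠ 0) (h : M ∣ C a * W) : M ∣ W := by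
  rw [← modByMonic_eq_zero_iff_dvd hM] at h ⊢
  rw [← smul_eq_C_mul, smul_modByMonic] at h
  exact (smul_eq_zero.mp h).resolve_left ha

lemma lift_dvd {O : Type*} [CommRing O] (a : O) {M f : O[X]} (hM : M.Monic)
    (h : M.map (Ideal.Quotient.mk (Ideal.span {a})) ∣ f.map (Ideal.Quotient.mk (Ideal.span {a}))) :
    ∃ f₁ : O[X], M ∣ f - C a * f₁ := by
  have h1 : (f %ₘ M).map (Ideal.Quotient.mk (Ideal.span {a})) = 0 := by
    rw [map_modByMonic _ hM]
    exact (modByMonic_eq_zero_iff_dvd (hM.map _)).mpr h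
  have h2 : C a ∣ f %ₘ M := by
    rw [C_dvd_iff_dvd_coeff]
    intro i
    have h3 := congrArg (fun r => coeff r i) h1
    simp only [coeff_map, coeff_zero] at h3
    rw [Ideal.Quotient.eq_zero_iff_mem, Ideal.mem_span_singleton] at h3
    exact h3
  obtain ⟨f₁, hf₁⟩ := h2
  refine ⟨f₁, ?_⟩
  rw [← hf₁]
  have h4 := modByMonic_add_div f M
  exact ⟨f /ₘ M, by linear_combination -h4⟩

lemma pow_dvd_or_pow_dvd {R : Type*} [CommRing R] [IsDomain R] {π f g : R} (hπ : Prime π)
    (a b : ℕ) (h : π ^ (a + b + 1) ∣ f * g) : π ^ (a + 1) ∣ f ∨ π ^ (b + 1) ∣ g := by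
  by_contra hcon
  rw [not_or] at hcon
  obtain ⟨h1, h2⟩ := hcon
  rw [pow_dvd_iff_le_emultiplicity] at h h1 h2
  rw [emultiplicity_mul hπ] at h
  rw [not_le] at h1 h2
  have h1' : emultiplicity π f ≤ (a : ℕ∞) := by
    rw [Nat.cast_add, Nat.cast_one] at h1
    exact Order.le_of_lt_add_one h1
  have h2' : emultiplicity π g ≤ (b : ℕ∞) := by
    rw [Nat.cast_add, Nat.cast_one] at h2
    exact Order.le_of_lt_add_one h2
  have h3 : ((a + b + 1 : ℕ) : ℕ∞) ≤ ((a + b : ℕ) : ℕ∞) := by
    refine h.trans ?_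
    rw [Nat.cast_add]
    exact add_le_add h1' h2'
  have h4 : a + b + 1 ≤ a + b := by exact_mod_cast h3
  omega

lemma monic_X_pow_sub_one {O : Type*} [CommRing O] {N : ℕ} (hN : N ≠ 0) :
    (X ^ N - 1 : O[X]).Monic := by
  have := monic_X_pow_sub_C (1 : O) hN
  simpa using this

lemma X_pow_sub_one_dvd {O : Type*} [CommRing O] {a b : ℕ} (h : a ∣ b) :
    (X ^ a - 1 : O[X]) ∣ X ^ b - 1 := by
  obtain ⟨c, rfl⟩ := h
  rw [pow_mul]
  simpa using sub_dvd_pow_sub_pow (X ^ a : O[X]) 1 c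

theorem key_lemma {O : Type*} [CommRing O] [IsDomain O] {p : ℕ} (hp : p.Prime)
    (hpO : Prime (p : O)) (c : O) (hc : ¬ (p : O) ∣ c) :
    ∀ (k : ℕ) (f g : O[X]), (X ^ p ^ k - 1 : O[X]) ∣ f * g - C ((p : O) ^ k * c) →
      ∃ (s : ℕ) (e : O[X]), ¬ (p : O) ∣ e.eval 1 ∧
        (X ^ p - 1 : O[X]) ∣ f - C ((p : O) ^ s) * e := by
  have : Fact p.Prime := ⟨hp⟩
  have hprime : (Ideal.span {(p : O)}).IsPrime := (Ideal.span_singleton_prime hpO.ne_zero).mpr hpO
  have hchar : CharP (O ⧸ Ideal.span {(p : O)}) p := CharP.quotient O p hpO.not_isUnit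
  set q := Ideal.Quotient.mk (Ideal.span {(p : O)}) with hq
  have hmapM : ∀ j : ℕ, (X ^ p ^ j - 1 : O[X]).map q = (X - C 1) ^ p ^ j := by
    intro j
    rw [C_1, sub_pow_char_pow]
    simp
  have hπ : Prime (X - C 1 : (O ⧸ Ideal.span {(p : O)})[X]) := prime_X_sub_C 1
  have hmon : ∀ j : ℕ, (X ^ p ^ j - 1 : O[X]).Monic := fun j =>
    monic_X_pow_sub_one (pow_ne_zero j hp.ne_zero)
  intro k
  induction k with
  | zero =>
    intro f g h
    refine ⟨0, f, ?_, by simp⟩
    obtain ⟨w, hw⟩ := h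
    have h1 := congrArg (eval 1) hw
    simp only [pow_zero, pow_one, one_mul, eval_sub, eval_mul, eval_C, eval_X, eval_one,
      sub_self, zero_mul] at h1
    intro h2
    apply hc
    have h3 : c = eval 1 f * eval 1 g := by linear_combination -h1
    rw [h3]
    exact h2.mul_right _
  | succ k ih =>
    intro f g h
    have hbar : (X - C 1) ^ p ^ (k + 1) ∣ f.map q * g.map q := by
      have h1 := Polynomial.map_dvd q h
      rw [hmapM, Polynomial.map_sub, Polynomial.map_mul, map_C] at h1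
      have h2 : q ((p : O) ^ (k + 1) * c) = 0 := by
        rw [hq, Ideal.Quotient.eq_zero_iff_mem, Ideal.mem_span_singleton]
        exact (dvd_pow_self _ (Nat.succ_ne_zero k)).mul_right _
      rwa [h2, C_0, sub_zero] at h1
    have hpk : 1 ≤ p ^ k := Nat.one_le_pow _ _ hp.pos
    have hpk2 : 2 * p ^ k ≤ p ^ (k + 1) := by
      rw [pow_succ, mul_comm]
      exact Nat.mul_le_mul_left _ hp.two_le
    have hsplit : p ^ (k + 1) = (p ^ (k + 1) - p ^ k) + (p ^ k - 1) + 1 := by omega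
    have hkk : (X ^ p ^ k - 1 : O[X]) ∣ X ^ p ^ (k + 1) - 1 :=
      X_pow_sub_one_dvd (pow_dvd_pow p (Nat.le_succ k))
    rw [hsplit] at hbar
    rcases pow_dvd_or_pow_dvd hπ _ _ hbar with hf | hg
    · -- the polynomial `f` is divisible by `p` at level `max k 1`
      have hj : p ^ (max k 1) ≤ p ^ (k + 1) - p ^ k + 1 := by
        rcases Nat.eq_zero_or_pos k with rfl | hk
        · simp only [zero_le, sup_of_le_right, pow_one, zero_add, pow_zero]
          have := hp.pos
          omega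
        · rw [max_eq_left hk]
          omega
      have hf' : (X ^ p ^ (max k 1) - 1 : O[X]).map q ∣ f.map q := by
        rw [hmapM]
        exact (pow_dvd_pow _ hj).trans hf
      obtain ⟨f₁, hf₁⟩ := lift_dvd (p : O) (hmon _) hf'
      have hk1 : (X ^ p ^ k - 1 : O[X]) ∣ X ^ p ^ (max k 1) - 1 :=
        X_pow_sub_one_dvd (pow_dvd_pow p (le_max_left k 1))
      have h11 : (X ^ p - 1 : O[X]) ∣ X ^ p ^ (max k 1) - 1 :=
        X_pow_sub_one_dvd (dvd_pow_self p (by omega))
      have h5 : (X ^ p ^ k - 1 : O[X]) ∣ f₁ * g - C ((p : O) ^ k * c) := by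
        apply monic_dvd_of_dvd_C_mul (hmon k) hpO.ne_zero
        have e1 : C (p : O) * (f₁ * g - C ((p : O) ^ k * c)) =
            (f * g - C ((p : O) ^ (k + 1) * c)) - (f - C (p : O) * f₁) * g := by
          simp only [map_mul, map_pow, pow_succ]
          ring
        rw [e1]
        exact dvd_sub (hkk.trans h) ((hk1.trans hf₁).mul_right _)
      obtain ⟨s, e, he, hs⟩ := ih f₁ g h5
      refine ⟨s + 1, e, he, ?_⟩
      have e2 : f - C ((p : O) ^ (s + 1)) * e =
          (f - C (p : O) * f₁) + C (p : O) * (f₁ - C ((p : O) ^ s) * e) := by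
        simp only [map_mul, map_pow, pow_succ]
        ring
      rw [e2]
      exact dvd_add (h11.trans hf₁) (hs.mul_left _)
    · have hg' : (X ^ p ^ k - 1 : O[X]).map q ∣ g.map q := by
        rw [hmapM]
        have e0 : p ^ k - 1 + 1 = p ^ k := by omega
        rwa [e0] at hg
      obtain ⟨g₁, hg₁⟩ := lift_dvd (p : O) (hmon _) hg'
      have h5 : (X ^ p ^ k - 1 : O[X]) ∣ f * g₁ - C ((p : O) ^ k * c) := by
        apply monic_dvd_of_dvd_C_mul (hmon k) hpO.ne_zero
        have e1 : C (p : O) * (f * g₁ - C ((p : O) ^ k * c)) =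
            (f * g - C ((p : O) ^ (k + 1) * c)) - f * (g - C (p : O) * g₁) := by
          simp only [map_mul, map_pow, pow_succ]
          ring
        rw [e1]
        exact dvd_sub (hkk.trans h) (hg₁.mul_left _)
      exact ih f g₁ h5

end Vale.Agent.P033
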