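import Mathlib
import Vale.Agent.P033.Key

/-!
The descent that excludes an even parameter `u` (orders `4 * u ^ 2` with `u` even).
-/

namespace Vale.Agent.P033

open Polynomial

/-- The polynomial `1 + X + ... + X ^ (N - 1)`. -/
noncomputable def geomT (N : ℕ) : ℤ[X] := ∑ i ∈ Finset.range N, X ^ i

lemma aeval_geomT {A : Type*} [CommRing A] (ω : A) (N : ℕ) :
    aeval ω (geomT N) = ∑ i ∈ Finset.range N, ω ^ i := by
  simp [geomT]

lemma dvd_of_forall_aeval {M : ℕ} {W : ℤ[X]}
    (h : ∀ (A : Type) [CommRing A] (ω : A), ω ^ M = 1 → aeval ω W = 0) :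
    (X ^ M - 1 : ℤ[X]) ∣ W := by
  have h1 : (AdjoinRoot.root (X ^ M - 1 : ℤ[X])) ^ M = 1 := by
    have h2 : aeval (AdjoinRoot.root (X ^ M - 1 : ℤ[X])) (X ^ M - 1 : ℤ[X]) = 0 := by
      rw [AdjoinRoot.aeval_eq, AdjoinRoot.mk_self]
    rw [map_sub, map_pow, aeval_X, map_one] at h2
    exact sub_eq_zero.mp h2
  have h3 := h _ _ h1
  rw [← AdjoinRoot.mk_eq_zero, ← AdjoinRoot.aeval_eq, aeval_def]
  rw [aeval_def] at h3
  rw [← h3]
  congr 1

lemma aeval_C_int {A : Type*} [CommRing A] (ω : A) (c : ℤ) : aeval ω (C c) = (c : A) := by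
  simp

lemma aeval_eq_zero_of_dvd' {A : Type*} [CommRing A] {M : ℕ} {W : ℤ[X]} (ω : A) (hω : ω ^ M = 1)
    (h : (X ^ M - 1 : ℤ[X]) ∣ W) : aeval ω W = 0 := by
  obtain ⟨c, rfl⟩ := h
  simp [hω]

lemma geom_mul_rep {A : Type*} [CommRing A] (ω : A) {M : ℕ} (hω : ω ^ M = 1) (r : ℕ) :
    ∑ i ∈ Finset.range (M * r), ω ^ i = r * ∑ i ∈ Finset.range M, ω ^ i := by
  induction r with
  | zero => simp
  | succ r ih =>
    rw [Nat.mul_succ, Finset.sum_range_add, ih]
    have : ∀ i, ω ^ (M * r + i) = ω ^ i := by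
      intro i
      rw [pow_add, pow_mul, hω, one_pow, one_mul]
    simp only [this]
    push_cast
    ring

/-- Sum of the coefficients at exponents divisible by `N`. -/
noncomputable def tau (N : ℕ) : ℤ[X] →ₗ[ℤ] ℤ :=
  Polynomial.lsum (fun i => if N ∣ i then LinearMap.id else 0)

lemma tau_monomial (N i : ℕ) (c : ℤ) : tau N (monomial i c) = if N ∣ i then c else 0 := by
  unfold tau
  rw [lsum_apply, sum_monomial_index]
  · split_ifs <;> simp
  · simp

lemma tau_mul_ideal (N : ℕ) (w : ℤ[X]) : tau N ((X ^ N - 1) * w) = 0 := by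
  induction w using Polynomial.induction_on' with
  | add a b ha hb => rw [mul_add, map_add, ha, hb, add_zero]
  | monomial i c =>
    rw [sub_mul, one_mul, X_pow_mul_monomial, map_sub, tau_monomial, tau_monomial]
    have : N ∣ i + N ↔ N ∣ i := by
      constructor
      · intro h
        exact (Nat.dvd_add_left (dvd_refl N)).mp h
      · intro h
        exact dvd_add h (dvd_refl N)
    simp [this]

lemma tau_geomT {N : ℕ} (hN : 0 < N) : tau N (geomT N) = 1 := by
  unfold geomT
  rw [map_sum, Finset.sum_eq_single 0]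
  · rw [← monomial_one_right_eq_X_pow, tau_monomial]
    simp
  · intro i hi hi0
    rw [← monomial_one_right_eq_X_pow, tau_monomial, if_neg]
    intro hd
    have := Nat.le_of_dvd (Nat.pos_of_ne_zero hi0) hd
    have := Finset.mem_range.mp hi
    omega
  · intro h
    exact (h (Finset.mem_range.mpr hN)).elim

lemma monomial_comp_X_pow (j e : ℕ) (d : ℤ) :
    (monomial j d : ℤ[X]).comp (X ^ e) = monomial (e * j) d := by
  rw [monomial_comp, ← pow_mul, C_mul_X_pow_eq_monomial]

lemma tau_symm {N e : ℕ} (he : N ∣ e + 1) (f g : ℤ[X]) :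
    tau N (f * g.comp (X ^ e)) = tau N (g * f.comp (X ^ e)) := by
  induction f using Polynomial.induction_on' with
  | add a b ha hb => rw [add_mul, map_add, ha, hb, add_comp, mul_add, map_add]
  | monomial i c =>
    induction g using Polynomial.induction_on' with
    | add a b ha hb => rw [add_comp, mul_add, map_add, ha, hb, add_mul, map_add]
    | monomial j d =>
      rw [monomial_comp_X_pow, monomial_comp_X_pow, monomial_mul_monomial, monomial_mul_monomial,
        tau_monomial, tau_monomial]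
      have key : ∀ a b : ℕ, N ∣ a + e * b → N ∣ b + e * a := by
        intro a b hab
        have h1 : (N : ℤ) ∣ ((a + e * b : ℕ) : ℤ) := Int.natCast_dvd_natCast.mpr hab
        have h2 : (N : ℤ) ∣ ((e + 1 : ℕ) : ℤ) := Int.natCast_dvd_natCast.mpr he
        rw [← Int.natCast_dvd_natCast]
        have h3 : ((b + e * a : ℕ) : ℤ) =
            ((e + 1 : ℕ) : ℤ) * ((a : ℤ) + b) - ((a + e * b : ℕ) : ℤ) := by
          push_cast
          ring
        rw [h3]
        exact dvd_sub (h2.mul_right _) h1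
      have : N ∣ i + e * j ↔ N ∣ j + e * i := ⟨key i j, key j i⟩
      simp only [this, mul_comm c d]

lemma tau_self_parity {N e : ℕ} (he : N ∣ e + 1) (z : ℤ[X]) :
    Even (tau N (z * z.comp (X ^ e)) - z.eval 1) := by
  induction z using Polynomial.induction_on' with
  | add a b ha hb =>
    obtain ⟨r, hr⟩ := ha
    obtain ⟨s, hs⟩ := hb
    refine ⟨r + s + tau N (a * b.comp (X ^ e)), ?_⟩
    rw [add_comp, add_mul, mul_add, mul_add, map_add, map_add, map_add, eval_add,
      tau_symm he b a]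
    linear_combination hr + hs
  | monomial i c =>
    rw [monomial_comp_X_pow, monomial_mul_monomial, tau_monomial, if_pos]
    · simp only [eval_monomial, one_pow, mul_one]
      have : c * c - c = c * (c - 1) := by ring
      rw [this]
      exact Int.even_mul_pred_self c
    · have : i + e * i = (e + 1) * i := by ring
      rw [this]
      exact he.mul_right _

theorem descent (e : ℕ) (a b : ℤ) (ha : Odd a) (hb : Odd b) :
    ∀ (c j : ℕ), c < j → 2 ^ j ∣ e + 1 → ∀ z : ℤ[X],
      ¬ (X ^ 2 ^ j - 1 : ℤ[X]) ∣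
        z * z.comp (X ^ e) - (C (4 ^ c * a) + C (2 ^ c * b) * geomT (2 ^ j)) := by
  intro c
  induction c with
  | zero =>
    intro j hj he z hz
    have h1 := aeval_eq_zero_of_dvd' (1 : ℤ) (one_pow _) hz
    simp only [pow_zero, one_mul, map_sub, map_add, map_mul, aeval_geomT, aeval_comp, aeval_C_int,
      map_pow, aeval_X, one_pow, Finset.sum_const, Finset.card_range, nsmul_eq_mul, mul_one,
      Int.cast_id] at h1
    simp only [coe_aeval_eq_eval] at h1
    obtain ⟨w, hw⟩ := hz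
    have h2 := congrArg (tau (2 ^ j)) hw
    rw [tau_mul_ideal, map_sub, map_add, ← smul_eq_C_mul, map_smul,
      tau_geomT (Nat.pos_of_ne_zero (by positivity)), ← monomial_zero_left, tau_monomial] at h2
    simp only [dvd_zero, if_true, pow_zero, one_mul, smul_eq_mul, mul_one] at h2
    have h3 := tau_self_parity he z
    obtain ⟨r, hr⟩ := h3
    obtain ⟨a', ha'⟩ := ha
    obtain ⟨b', hb'⟩ := hb
    obtain ⟨j', rfl⟩ : ∃ j', j = j' + 1 := ⟨j - 1, by omega⟩
    have h4 : eval 1 z = 2 * (a' + b' + 1 - r) := by linear_combination h2 - hr + ha' + hb'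
    rw [h4] at h1
    push_cast at h1
    have h5 : (1 : ℤ) = 2 * (2 * (a' + b' + 1 - r) ^ 2 - a' - b * 2 ^ j') := by
      linear_combination (-1 : ℤ) * h1 - ha'
    omega
  | succ c ih =>
    intro j hj he z hz
    obtain ⟨j', rfl⟩ : ∃ j', j = j' + 1 := ⟨j - 1, by omega⟩
    have he' : 2 ^ j' ∣ e + 1 := (pow_dvd_pow 2 (Nat.le_succ j')).trans he
    have hmon : (X ^ 2 ^ j' - 1 : ℤ[X]).Monic := monic_X_pow_sub_one (by positivity)
    have h2p : Prime ((2 : ℕ) : ℤ) := Nat.prime_iff_prime_int.mp Nat.prime_two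
    have : Fact (Nat.Prime 2) := ⟨Nat.prime_two⟩
    have hprime : (Ideal.span {((2 : ℕ) : ℤ)}).IsPrime :=
      (Ideal.span_singleton_prime h2p.ne_zero).mpr h2p
    have hchar : CharP (ℤ ⧸ Ideal.span {((2 : ℕ) : ℤ)}) 2 := CharP.quotient ℤ 2 h2p.not_isUnit
    set q := Ideal.Quotient.mk (Ideal.span {((2 : ℕ) : ℤ)}) with hq
    have hmapM : ∀ i : ℕ, (X ^ 2 ^ i - 1 : ℤ[X]).map q = (X - C 1) ^ 2 ^ i := by
      intro i
      rw [C_1, sub_pow_char_pow]
      simp
    have hπ : Prime (X - C 1 : (ℤ ⧸ Ideal.span {((2 : ℕ) : ℤ)})[X]) := prime_X_sub_C 1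
    have hbar : (X - C 1) ^ 2 ^ (j' + 1) ∣ z.map q * (z.comp (X ^ e)).map q := by
      have h1 := Polynomial.map_dvd q hz
      rw [hmapM, Polynomial.map_sub, Polynomial.map_mul, Polynomial.map_add, Polynomial.map_mul,
        map_C, map_C] at h1
      have h2 : q (4 ^ (c + 1) * a) = 0 := by
        rw [hq, Ideal.Quotient.eq_zero_iff_mem, Ideal.mem_span_singleton]
        exact ⟨2 * 4 ^ c * a, by push_cast; ring⟩
      have h3 : q (2 ^ (c + 1) * b) = 0 := by
        rw [hq, Ideal.Quotient.eq_zero_iff_mem, Ideal.mem_span_singleton]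
        exact ⟨2 ^ c * b, by push_cast; ring⟩
      rwa [h2, h3, C_0, zero_mul, add_zero, sub_zero] at h1
    have hpos : 1 ≤ 2 ^ j' := Nat.one_le_two_pow
    have hsplit : 2 ^ (j' + 1) = 2 ^ j' + (2 ^ j' - 1) + 1 := by
      rw [pow_succ]
      omega
    rw [hsplit] at hbar
    have hz1 : ∃ z₁ : ℤ[X], (X ^ 2 ^ j' - 1 : ℤ[X]) ∣ z - C ((2 : ℕ) : ℤ) * z₁ := by
      rcases pow_dvd_or_pow_dvd hπ _ _ hbar with hf | hg
      · apply lift_dvd _ hmon
        rw [hmapM]
        exact (pow_dvd_pow _ (Nat.le_succ _)).trans hf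
      · have e0 : 2 ^ j' - 1 + 1 = 2 ^ j' := by omega
        rw [e0, ← hmapM] at hg
        obtain ⟨g₁, hg₁⟩ := lift_dvd _ hmon hg
        refine ⟨g₁.comp (X ^ e), dvd_of_forall_aeval ?_⟩
        intro A _ ω hω
        have hωe : (ω ^ e) ^ 2 ^ j' = 1 := by rw [← pow_mul, mul_comm, pow_mul, hω, one_pow]
        have h1 := aeval_eq_zero_of_dvd' (ω ^ e) hωe hg₁
        have h2 : ω ^ (e + 1) = 1 := by
          obtain ⟨t, ht⟩ := he'
          rw [ht, pow_mul, hω, one_pow]
        have h3 : (ω ^ e) ^ e = ω := by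
          have h4 : (ω ^ e) ^ (e + 1) = 1 := by rw [← pow_mul, mul_comm, pow_mul, h2, one_pow]
          rw [pow_succ] at h2 h4
          linear_combination (-((ω ^ e) ^ e)) * h2 + ω * h4
        simp only [map_sub, map_mul, aeval_comp, map_pow, aeval_X, h3, aeval_C_int] at h1 ⊢
        exact h1
    obtain ⟨z₁, hz₁⟩ := hz1
    apply ih j' (by omega) he' z₁
    apply monic_dvd_of_dvd_C_mul hmon (a := 4) (by norm_num)
    apply dvd_of_forall_aeval
    intro A _ ω hω
    have hωe : (ω ^ e) ^ 2 ^ j' = 1 := by rw [← pow_mul, mul_comm, pow_mul, hω, one_pow]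
    have hω2 : ω ^ 2 ^ (j' + 1) = 1 := by rw [pow_succ, pow_mul, hω, one_pow]
    have h1 := aeval_eq_zero_of_dvd' ω hω hz₁
    have h2 := aeval_eq_zero_of_dvd' (ω ^ e) hωe hz₁
    have h3 := aeval_eq_zero_of_dvd' ω hω2 hz
    have h4 : ∑ i ∈ Finset.range (2 ^ (j' + 1)), ω ^ i =
        2 * ∑ i ∈ Finset.range (2 ^ j'), ω ^ i := by
      rw [pow_succ, geom_mul_rep ω hω 2]
      norm_num
    simp only [map_sub, map_add, map_mul, aeval_comp, map_pow, aeval_X, aeval_C_int, aeval_geomT,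
      h4] at h1 h2 h3 ⊢
    push_cast at h1 h2 h3 ⊢
    linear_combination h3 - (aeval (ω ^ e) z) * h1 - 2 * (aeval ω z₁) * h2

end Vale.Agent.P033
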