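import Mathlib
import Vale.Agent.P033.Key

/-!
Local form of the key lemma: over a local domain of residue characteristic `p`, the values of
`h` at `η` and `η * ζ` (with `η` of order prime to `p` and `ζ ^ p = 1`) differ by a principal unit.
-/

namespace Vale.Agent.P033

open Polynomial

/-- The localisation of `ℤ[η]` inside the ring `R`. -/
def locSub {R : Type*} [CommRing R] (η : R) : Subring R where
  carrier := {x | ∃ a b : ℤ[X], IsUnit (aeval η b) ∧ x * aeval η b = aeval η a}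
  mul_mem' := by
    rintro x y ⟨a, b, hb, hx⟩ ⟨a', b', hb', hy⟩
    refine ⟨a * a', b * b', by rw [map_mul]; exact hb.mul hb', ?_⟩
    rw [map_mul, map_mul, ← hx, ← hy]
    ring
  one_mem' := ⟨1, 1, by simp, by simp⟩
  add_mem' := by
    rintro x y ⟨a, b, hb, hx⟩ ⟨a', b', hb', hy⟩
    refine ⟨a * b' + a' * b, b * b', by rw [map_mul]; exact hb.mul hb', ?_⟩
    rw [map_add, map_mul, map_mul, map_mul, ← hx, ← hy]
    ring
  zero_mem' := ⟨0, 1, by simp, by simp⟩
  neg_mem' := by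
    rintro x ⟨a, b, hb, hx⟩
    refine ⟨-a, b, hb, ?_⟩
    rw [map_neg, ← hx]
    ring

lemma frob_aeval {R : Type*} [CommRing R] {p : ℕ} (hp : p.Prime) (η : R) (f : ℕ)
    (hη : η ^ p ^ f = η) (a : ℤ[X]) :
    ∃ c : ℤ[X], (aeval η a) ^ p ^ f = aeval η a + p * aeval η c := by
  have : Fact p.Prime := ⟨hp⟩
  induction a using Polynomial.induction_on' with
  | add a b ha hb =>
    obtain ⟨c, hc⟩ := ha
    obtain ⟨d, hd⟩ := hb
    obtain ⟨r, hr⟩ := exists_add_pow_prime_pow_eq hp a b f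
    have h1 := congrArg (aeval η) hr
    simp only [map_add, map_pow, map_mul, map_natCast] at h1
    refine ⟨c + d + a * b * r, ?_⟩
    simp only [map_add, map_mul]
    rw [h1, hc, hd]
    ring
  | monomial i c =>
    have h1 : (p : ℤ) ∣ c ^ p ^ f - c := by
      rw [← ZMod.intCast_zmod_eq_zero_iff_dvd]
      push_cast
      rw [ZMod.pow_card_pow, sub_self]
    obtain ⟨d, hd⟩ := h1
    refine ⟨monomial i d, ?_⟩
    simp only [aeval_monomial, eq_intCast]
    have h2 : (c : R) ^ p ^ f = c + p * d := by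
      have h3 := congrArg (Int.cast : ℤ → R) hd
      push_cast at h3
      linear_combination h3
    rw [mul_pow, h2, ← pow_mul, mul_comm i, pow_mul, hη]
    ring

lemma locSub_max {R : Type*} [CommRing R] [IsLocalRing R] {p m : ℕ} (hp : p.Prime)
    (hm : ¬ p ∣ m) (η : R) (hη : η ^ m = 1) (x : R) (hx : x ∈ locSub η)
    (hxm : x ∈ IsLocalRing.maximalIdeal R) : ∃ y ∈ locSub η, x = p * y := by
  have hm0 : 0 < m := Nat.pos_of_ne_zero (by rintro rfl; exact hm (dvd_zero p))
  have hcop : Nat.Coprime p m := (Nat.Prime.coprime_iff_not_dvd hp).mpr hm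
  have hf : 0 < Nat.totient m := Nat.totient_pos.mpr hm0
  have hQ : 1 < p ^ Nat.totient m := Nat.one_lt_pow hf.ne' hp.one_lt
  have hmod : p ^ Nat.totient m ≡ 1 [MOD m] := Nat.ModEq.pow_totient hcop
  obtain ⟨t, ht⟩ : m ∣ p ^ Nat.totient m - 1 := (Nat.modEq_iff_dvd' hQ.le).mp hmod.symm
  have hηQ : η ^ p ^ Nat.totient m = η := by
    have e : p ^ Nat.totient m = m * t + 1 := by omega
    rw [e, pow_succ, pow_mul, hη, one_pow, one_mul]
  obtain ⟨a, b, hb, hab⟩ := hx
  obtain ⟨c, hc⟩ := frob_aeval hp η _ hηQ a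
  obtain ⟨Q, hQ'⟩ : ∃ Q, p ^ Nat.totient m = Q + 2 := ⟨p ^ Nat.totient m - 2, by omega⟩
  rw [hQ'] at hc
  have hA : aeval η a ∈ IsLocalRing.maximalIdeal R := by
    rw [← hab]
    exact Ideal.mul_mem_right _ _ hxm
  have hA' : (aeval η a) ^ (Q + 1) ∈ IsLocalRing.maximalIdeal R := by
    rw [pow_succ]
    exact Ideal.mul_mem_left _ _ hA
  have hd : IsUnit (1 - (aeval η a) ^ (Q + 1)) :=
    IsLocalRing.isUnit_one_sub_self_of_mem_nonunits _ hA'
  have hdb : IsUnit (aeval η ((1 - a ^ (Q + 1)) * b)) := by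
    rw [map_mul, map_sub, map_one, map_pow]
    exact hd.mul hb
  obtain ⟨w, hw⟩ := hdb.exists_right_inv
  refine ⟨-(aeval η c) * w, ⟨-c, (1 - a ^ (Q + 1)) * b, hdb, ?_⟩, ?_⟩
  · rw [map_neg]
    linear_combination (-(aeval η c)) * hw
  · rw [map_mul, map_sub, map_one, map_pow] at hw
    linear_combination (-x) * hw + (w * (1 - (aeval η a) ^ (Q + 1))) * hab - w * hc

theorem local_key {R : Type*} [CommRing R] [IsDomain R] [IsLocalRing R] {p k m : ℕ}
    (hp : p.Prime) (hpm : (p : R) ∈ IsLocalRing.maximalIdeal R) (hp0 : (p : R) ≠ 0)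
    (hm : ¬ p ∣ m) (η ζ : R) (hη : η ^ m = 1) (hζ : ζ ^ p = 1) (h g : ℤ[X])
    (hhg : (X ^ (p ^ k * m) - 1 : ℤ[X]) ∣ h * g - C ((p ^ k * m : ℕ) : ℤ)) :
    ∃ w : R, w - 1 ∈ IsLocalRing.maximalIdeal R ∧ aeval (η * ζ) h = w * aeval η h := by
  set O := locSub η with hO
  have hprimeM : (IsLocalRing.maximalIdeal R).IsPrime := inferInstance
  have hdvd : ∀ x : O, (p : O) ∣ x ↔ (x : R) ∈ IsLocalRing.maximalIdeal R := by
    intro x
    constructor
    · rintro ⟨y, rfl⟩
      push_cast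
      exact Ideal.mul_mem_right _ _ hpm
    · intro hx
      obtain ⟨y, hy, hxy⟩ := locSub_max hp hm η hη x x.2 hx
      exact ⟨⟨y, hy⟩, Subtype.ext (by push_cast; exact hxy)⟩
  have hpO : Prime (p : O) := by
    refine ⟨?_, ?_, ?_⟩
    · intro h0
      apply hp0
      have h1 := congrArg (fun x : O => (x : R)) h0
      simpa using h1
    · intro hu
      have h1 : (p : O) ∣ 1 := hu.dvd
      rw [hdvd] at h1
      exact hprimeM.ne_top ((Ideal.eq_top_iff_one _).mpr h1)
    · intro x y hxy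
      rw [hdvd] at hxy
      rw [hdvd, hdvd]
      exact hprimeM.mem_or_mem (by simpa using hxy)
  have hcm : ¬ (p : O) ∣ (m : O) := by
    intro h1
    have hcop : IsCoprime (p : O) (m : O) :=
      Nat.Coprime.cast ((Nat.Prime.coprime_iff_not_dvd hp).mpr hm)
    exact hpO.not_isUnit (hcop.isUnit_of_dvd' dvd_rfl h1)
  let η' : O := ⟨η, X, 1, by simp, by simp⟩
  have hη' : η' ^ m = 1 := Subtype.ext (by simpa using hη)
  have h1 : (X ^ p ^ k - 1 : O[X]) ∣ aeval (C η' * X) h * aeval (C η' * X) g -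
      C ((p : O) ^ k * (m : O)) := by
    have h2 := map_dvd (aeval (C η' * X) : ℤ[X] →ₐ[ℤ] O[X]) hhg
    have h3 : aeval (C η' * X : O[X]) (X ^ (p ^ k * m) - 1 : ℤ[X]) = X ^ (p ^ k * m) - 1 := by
      rw [map_sub, map_pow, aeval_X, map_one, mul_pow, ← C_pow, mul_comm (p ^ k) m, pow_mul η',
        hη', one_pow, C_1, one_mul]
    rw [h3, map_sub, map_mul] at h2
    have h4 : aeval (C η' * X : O[X]) (C ((p ^ k * m : ℕ) : ℤ)) = C ((p : O) ^ k * (m : O)) := by
      simp
    rw [h4] at h2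
    exact (X_pow_sub_one_dvd (dvd_mul_right _ _)).trans h2
  obtain ⟨s, e, he, hs⟩ := key_lemma hp hpO (m : O) hcm k _ _ h1
  have hval : ∀ z : R, z ^ p = 1 →
      aeval (η * z) h = (p : R) ^ s * (e.map O.subtype).eval z := by
    intro z hz
    let ψ : O[X] →+* R := eval₂RingHom O.subtype z
    have h2 := map_dvd ψ hs
    have h3 : ψ (X ^ p - 1) = 0 := by simp [ψ, hz]
    rw [h3, zero_dvd_iff, map_sub, map_mul, sub_eq_zero] at h2
    have h4 : ψ (aeval (C η' * X) h) = aeval (η * z) h := by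
      have h5 := aeval_algHom_apply ψ.toIntAlgHom (C η' * X) h
      have h6 : ψ.toIntAlgHom (C η' * X) = η * z := by simp [ψ, η']
      rw [h6] at h5
      exact h5.symm
    have h7 : ψ (C ((p : O) ^ s)) = (p : R) ^ s := by
      change eval₂ O.subtype z (C ((p : O) ^ s)) = _
      rw [eval₂_C, map_pow, map_natCast]
    rw [← h4, h2, eval_map, h7]
    rfl
  have he1 : (e.map O.subtype).eval 1 = ((e.eval 1 : O) : R) := by
    rw [eval_map]
    simp
  have hu : IsUnit ((e.map O.subtype).eval 1) := by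
    rw [he1]
    by_contra hnu
    exact he ((hdvd _).mpr hnu)
  obtain ⟨v, hv⟩ := hu.exists_right_inv
  have hζ1 : ζ - 1 ∈ IsLocalRing.maximalIdeal R := by
    obtain ⟨r, hr⟩ := exists_add_pow_prime_eq hp (ζ - 1) 1
    rw [sub_add_cancel, hζ, one_pow] at hr
    have h2 : (ζ - 1) ^ p = (p : R) * (-((ζ - 1) * r)) := by linear_combination -hr
    apply hprimeM.mem_of_pow_mem p
    rw [h2]
    exact Ideal.mul_mem_right _ _ hpm
  obtain ⟨t, ht⟩ := sub_dvd_eval_sub ζ 1 (e.map O.subtype)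
  refine ⟨(e.map O.subtype).eval ζ * v, ?_, ?_⟩
  · have h2 : (e.map O.subtype).eval ζ * v - 1 = (ζ - 1) * (t * v) := by
      linear_combination v * ht + hv
    rw [h2]
    exact Ideal.mul_mem_right _ _ hζ1
  · have h2 := hval 1 (one_pow p)
    rw [mul_one] at h2
    rw [hval ζ hζ, h2]
    linear_combination (-((p : R) ^ s * (e.map O.subtype).eval ζ)) * hv

end Vale.Agent.P033
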