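import Mathlib
import Vale.Agent.P033.Local
import Vale.Agent.P033.Even

/-!
Valuation-theoretic tools for the circulant Hadamard conjecture.
-/

namespace Vale.Agent.P033

open Polynomial

lemma alt_prod_induction {K : Type*} [Field K] (P : Finset ℕ) (G : Finset ℕ → K) {p : ℕ}
    (hp : p ∈ P) (Q : K → Prop) (h1 : Q 1) (hmul : ∀ a b, Q a → Q b → Q (a * b))
    (hinv : ∀ a, Q a → Q a⁻¹) (hG : ∀ S ⊆ P.erase p, Q (G (insert p S) / G S)) :
    Q (∏ S ∈ P.powerset, G S ^ ((-1 : ℤ) ^ S.card)) := by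
  rw [← Finset.insert_erase hp, Finset.prod_powerset_insert (Finset.notMem_erase p P),
    ← Finset.prod_mul_distrib]
  apply Finset.prod_induction _ Q hmul h1
  intro S hS
  have hS' := Finset.mem_powerset.mp hS
  have hpS : p ∉ S := fun h => Finset.notMem_erase p P (hS' h)
  rw [Finset.card_insert_of_notMem hpS, pow_succ]
  rcases neg_one_pow_eq_or ℤ S.card with h | h
  · rw [h]
    have := hinv _ (hG S hS')
    rw [inv_div, div_eq_mul_inv] at this
    simpa using this
  · rw [h]
    have := hG S hS'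
    rw [div_eq_mul_inv, mul_comm] at this
    simpa using this

lemma isIntegral_of_forall_valuationSubring {K : Type*} [Field K] (x : K)
    (h : ∀ V : ValuationSubring K, x ∈ V) : IsIntegral ℤ x := by
  by_contra hx
  have hx' : x ∉ (integralClosure ℤ K).toSubring := hx
  obtain ⟨V, _, hV⟩ := Subring.exists_le_valuationSubring_of_isIntegrallyClosedIn hx'
  exact hV (h V)

lemma exists_valuationSubring_lt {K : Type*} [Field K] [CharZero K] {p : ℕ} (hp : p.Prime) :
    ∃ V : ValuationSubring K, V.valuation (p : K) < 1 := by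
  by_contra hcon
  have hp0 : (p : K) ≠ 0 := Nat.cast_ne_zero.mpr hp.ne_zero
  have h1 : IsIntegral ℤ ((p : K)⁻¹) := by
    apply isIntegral_of_forall_valuationSubring
    intro V
    rw [← V.valuation_le_one_iff, map_inv₀]
    have h2 : ¬ V.valuation (p : K) < 1 := fun h => hcon ⟨V, h⟩
    exact inv_le_one_of_one_le₀ (not_lt.mp h2)
  have h2 : ((p : K)⁻¹) = algebraMap ℚ K ((p : ℚ)⁻¹) := by simp
  rw [h2, isIntegral_algebraMap_iff (algebraMap ℚ K).injective] at h1
  obtain ⟨y, hy⟩ := IsIntegrallyClosed.isIntegral_iff.mp h1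
  have hp0' : (p : ℚ) ≠ 0 := Nat.cast_ne_zero.mpr hp.ne_zero
  have h3 : (y : ℚ) * p = 1 := by
    have : (y : ℚ) = (p : ℚ)⁻¹ := by simpa using hy
    rw [this, inv_mul_cancel₀ hp0']
  have h4 : y * p = 1 := by exact_mod_cast h3
  have h5 : (p : ℤ) ∣ 1 := ⟨y, by rw [← h4, mul_comm]⟩
  have h6 : p ∣ 1 := by exact_mod_cast h5
  exact hp.one_lt.ne' (Nat.dvd_one.mp h6)

section val

variable {K : Type*} [Field K] (V : ValuationSubring K)

lemma root_mem {ω : K} {n : ℕ} (hn : n ≠ 0) (hω : ω ^ n = 1) : ω ∈ V := by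
  rw [← V.valuation_le_one_iff]
  have h1 : V.valuation ω ^ n = 1 := by rw [← map_pow, hω, map_one]
  exact ((pow_eq_one_iff_left hn).mp h1).le

lemma coe_aeval (ω : V) (f : ℤ[X]) : ((aeval ω f : V) : K) = aeval (ω : K) f :=
  (aeval_algHom_apply V.subtype.toIntAlgHom ω f).symm

lemma aeval_mem {ω : K} (hω : ω ∈ V) (f : ℤ[X]) : aeval ω f ∈ V := by
  have := coe_aeval V ⟨ω, hω⟩ f
  rw [← this]
  exact SetLike.coe_mem _

lemma natCast_val_le (m : ℕ) : V.valuation (m : K) ≤ 1 :=
  (V.valuation_le_one_iff _).mpr (natCast_mem V m)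

lemma intCast_val_le (m : ℤ) : V.valuation (m : K) ≤ 1 :=
  (V.valuation_le_one_iff _).mpr (intCast_mem V m)

lemma val_eq_one_of_mul {a b : K} (ha : a ∈ V) (hb : b ∈ V) (hab : V.valuation (a * b) = 1) :
    V.valuation a = 1 := by
  rw [map_mul] at hab
  have h1 := (V.valuation_le_one_iff _).mpr ha
  have h2 := (V.valuation_le_one_iff _).mpr hb
  by_contra hne
  have h3 : V.valuation a < 1 := lt_of_le_of_ne h1 hne
  have h4 : V.valuation a * V.valuation b ≤ V.valuation a := mul_le_of_le_one_right' h2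
  rw [hab] at h4
  exact absurd h3 (not_lt.mpr h4)

lemma exists_prime_val_lt (u : ℕ) (hu : u ≠ 0) (h : V.valuation (u : K) < 1) :
    ∃ p ∈ u.primeFactors, V.valuation (p : K) < 1 := by
  induction u using Nat.recOnMul with
  | zero => exact (hu rfl).elim
  | one => simp at h
  | prime p hp => exact ⟨p, by simp [hp], h⟩
  | mul a b iha ihb =>
    have ha : a ≠ 0 := left_ne_zero_of_mul hu
    have hb : b ≠ 0 := right_ne_zero_of_mul hu
    rw [Nat.primeFactors_mul ha hb]
    by_cases h1 : V.valuation (a : K) < 1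
    · obtain ⟨p, hp, hv⟩ := iha ha h1
      exact ⟨p, Finset.mem_union_left _ hp, hv⟩
    · have h2 : V.valuation (a : K) = 1 := le_antisymm (natCast_val_le V a) (not_lt.mp h1)
      rw [Nat.cast_mul, map_mul, h2, one_mul] at h
      obtain ⟨p, hp, hv⟩ := ihb hb h
      exact ⟨p, Finset.mem_union_right _ hp, hv⟩

lemma val_eq_one_of_coprime {a b : ℕ} (hab : Nat.Coprime a b) (ha : V.valuation (a : K) < 1) :
    V.valuation (b : K) = 1 := by
  by_contra hne
  have hb : V.valuation (b : K) < 1 := lt_of_le_of_ne (natCast_val_le V b) hne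
  obtain ⟨x, y, hxy⟩ : IsCoprime (a : ℤ) (b : ℤ) := Nat.Coprime.cast hab
  have h1 : (x : K) * a + (y : K) * b = 1 := by exact_mod_cast congrArg (Int.cast : ℤ → K) hxy
  have h2 : V.valuation ((x : K) * a) < 1 := by
    rw [map_mul]
    exact lt_of_le_of_lt (mul_le_of_le_one_left' (intCast_val_le V x)) ha
  have h3 : V.valuation ((y : K) * b) < 1 := by
    rw [map_mul]
    exact lt_of_le_of_lt (mul_le_of_le_one_left' (intCast_val_le V y)) hb
  have h4 := V.valuation.map_add_lt h2 h3
  rw [h1, map_one] at h4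
  exact lt_irrefl _ h4

lemma pu_val {x : K} (hx : V.valuation (x - 1) < 1) : V.valuation x = 1 := by
  have := V.valuation.map_one_add_of_lt hx
  rwa [add_sub_cancel] at this

lemma pu_mul (a b : K) (ha : V.valuation (a - 1) < 1) (hb : V.valuation (b - 1) < 1) :
    V.valuation (a * b - 1) < 1 := by
  have e : a * b - 1 = a * (b - 1) + (a - 1) := by ring
  rw [e]
  apply V.valuation.map_add_lt _ ha
  rwa [map_mul, pu_val V ha, one_mul]

lemma pu_inv (a : K) (ha : V.valuation (a - 1) < 1) : V.valuation (a⁻¹ - 1) < 1 := by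
  have h1 := pu_val V ha
  have h0 : a ≠ 0 := by
    rintro rfl
    simp at h1
  have e : a⁻¹ - 1 = -(a⁻¹ * (a - 1)) := by field_simp; ring
  rwa [e, Valuation.map_neg, map_mul, map_inv₀, h1, inv_one, one_mul]

lemma pu_pow (a : K) (ha : V.valuation (a - 1) < 1) (N : ℕ) : V.valuation (a ^ N - 1) < 1 := by
  induction N with
  | zero => simp
  | succ N ih => rw [pow_succ]; exact pu_mul V _ _ ih ha

lemma odd_order (h2 : V.valuation (2 : K) = 1) (x : K) (hx : V.valuation (x - 1) < 1) (N : ℕ)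
    (hN : 0 < N) (hxN : x ^ N = 1) : ∃ M : ℕ, Odd M ∧ x ^ M = 1 := by
  induction N using Nat.strong_induction_on with
  | _ N ih =>
    rcases Nat.even_or_odd N with ⟨M, hM⟩ | hodd
    · apply ih M (by omega) (by omega)
      have h1 : (x ^ M) ^ 2 = 1 := by rw [← pow_mul, mul_two, ← hM, hxN]
      rcases sq_eq_one_iff.mp h1 with h3 | h3
      · exact h3
      · exfalso
        have h4 := pu_pow V x hx M
        have e : x ^ M - 1 = -2 := by rw [h3]; ring
        rw [e, Valuation.map_neg, h2] at h4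
        exact lt_irrefl _ h4
    · exact ⟨N, hodd, hxN⟩

lemma ratio_pu [CharZero K] {p k m : ℕ} (hp : p.Prime) (hpv : V.valuation (p : K) < 1)
    (hm : ¬ p ∣ m) (η ζ : K) (hη : η ^ m = 1) (hζ : ζ ^ p = 1) (h g : ℤ[X])
    (hhg : (X ^ (p ^ k * m) - 1 : ℤ[X]) ∣ h * g - C ((p ^ k * m : ℕ) : ℤ))
    (h0 : aeval η h ≠ 0) :
    V.valuation (aeval (η * ζ) h / aeval η h - 1) < 1 := by
  have hm0 : m ≠ 0 := by rintro rfl; exact hm (dvd_zero p)
  have hηV := root_mem V hm0 hη
  have hζV := root_mem V hp.ne_zero hζ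
  have hpm : (p : V) ∈ IsLocalRing.maximalIdeal V := by
    rw [V.valuation_lt_one_iff]
    simpa using hpv
  have hp0 : (p : V) ≠ 0 := by
    intro h1
    have h2 := congrArg (fun x : V => (x : K)) h1
    exact hp.ne_zero (by simpa using h2)
  obtain ⟨w, hw, hw'⟩ := local_key hp hpm hp0 hm (⟨η, hηV⟩ : V) ⟨ζ, hζV⟩
    (Subtype.ext (by simpa using hη)) (Subtype.ext (by simpa using hζ)) h g hhg
  have h1 := congrArg (fun x : V => (x : K)) hw'
  simp only [coe_aeval, MulMemClass.coe_mul] at h1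
  rw [h1, mul_div_assoc, div_self h0, mul_one]
  rw [V.valuation_lt_one_iff] at hw
  simpa using hw

end val

end Vale.Agent.P033
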