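import Mathlib
import Vale.Agent.P033.Val

/-!
The main argument: orders `4 * u ^ 2` with `u` odd and `u > 1` are impossible.
-/

namespace Vale.Agent.P033

open Polynomial

section basic

variable {K : Type*} [Field K] [CharZero K] {u : ℕ} {D : ℤ[X]}

omit [CharZero K] in
lemma geomT_of_ne_one {n : ℕ} {ω : K} (hω : ω ^ n = 1) (h1 : ω ≠ 1) :
    aeval ω (geomT n) = 0 := by
  rw [aeval_geomT]
  have := mul_geom_sum ω n
  rw [hω, sub_self] at this
  exact (mul_eq_zero.mp this).resolve_left (sub_ne_zero.mpr h1)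

omit [CharZero K] in
lemma geomT_one {n : ℕ} : aeval (1 : K) (geomT n) = n := by
  rw [aeval_geomT]
  simp

/-- Half of the value of `geomT (4 u ^ 2) - 2 D` at `ω`. -/
noncomputable def Fh (u : ℕ) (D : ℤ[X]) (ω : K) : K :=
  aeval ω (geomT (4 * u ^ 2) - C 2 * D) / 2

lemma Fh_eq (ω : K) : Fh u D ω = aeval ω (geomT (4 * u ^ 2)) / 2 - aeval ω D := by
  unfold Fh
  rw [map_sub, map_mul, aeval_C_int]
  push_cast
  ring

lemma Fh_of_ne_one {ω : K} (hω : ω ^ (4 * u ^ 2) = 1) (h1 : ω ≠ 1) :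
    Fh u D ω = -aeval ω D := by
  rw [Fh_eq, geomT_of_ne_one hω h1]
  ring

lemma Fh_one : Fh u D (1 : K) = aeval (1 : K) (C (2 * (u : ℤ) ^ 2) - D) := by
  rw [Fh_eq, geomT_one, map_sub, aeval_C_int]
  push_cast
  ring

lemma Fh_sq {ω : K} (hω : ω ^ (4 * u ^ 2) = 1) :
    Fh u D ω ^ 2 = aeval ω (C ((u : ℤ) ^ 2) * geomT (4 * u ^ 2) - geomT (4 * u ^ 2) * D + D ^ 2) := by
  rw [Fh_eq]
  simp only [map_add, map_sub, map_mul, map_pow, aeval_C_int]
  by_cases h1 : ω = 1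
  · subst h1
    rw [geomT_one]
    push_cast
    ring
  · rw [geomT_of_ne_one hω h1]
    ring

lemma Fh_mem (V : ValuationSubring K) (hu : u ≠ 0) {ω : K} (hω : ω ^ (4 * u ^ 2) = 1) :
    Fh u D ω ∈ V := by
  have hωV := root_mem V (by positivity) hω
  by_cases h1 : ω = 1
  · subst h1
    rw [Fh_one]
    exact aeval_mem V hωV _
  · rw [Fh_of_ne_one hω h1]
    exact neg_mem (aeval_mem V hωV _)

/-- The Hadamard relation in polynomial form. -/
def Rel (u : ℕ) (D : ℤ[X]) : Prop :=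
  (X ^ (4 * u ^ 2) - 1 : ℤ[X]) ∣ (geomT (4 * u ^ 2) - C 2 * D) *
    (geomT (4 * u ^ 2) - C 2 * D).comp (X ^ (4 * u ^ 2 - 1)) - C ((4 * u ^ 2 : ℕ) : ℤ)

lemma Fh_mul (hR : Rel u D) {ω : K} (hω : ω ^ (4 * u ^ 2) = 1) :
    Fh u D ω * Fh u D (ω ^ (4 * u ^ 2 - 1)) = (u : K) ^ 2 := by
  have h1 := aeval_eq_zero_of_dvd' ω hω hR
  rw [map_sub, map_mul, aeval_comp, map_pow, aeval_X, aeval_C_int] at h1
  unfold Fh
  push_cast at h1
  linear_combination (1 / 4 : K) * h1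

lemma Fh_ne_zero (hR : Rel u D) (hu : u ≠ 0) {ω : K} (hω : ω ^ (4 * u ^ 2) = 1) :
    Fh u D ω ≠ 0 := by
  intro h0
  have h1 := Fh_mul hR hω
  rw [h0, zero_mul] at h1
  exact pow_ne_zero 2 (Nat.cast_ne_zero.mpr hu) h1.symm

omit [CharZero K] in
lemma pow_pred_pow {n : ℕ} {ω : K} (hω : ω ^ n = 1) : (ω ^ (n - 1)) ^ n = 1 := by
  rw [← pow_mul, mul_comm, pow_mul, hω, one_pow]

omit [CharZero K] in
lemma mul_pow_pred {n : ℕ} (hn : n ≠ 0) {ω : K} (hω : ω ^ n = 1) : ω * ω ^ (n - 1) = 1 := by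
  rw [← pow_succ', Nat.sub_add_cancel (Nat.pos_of_ne_zero hn), hω]

lemma Fh_val (V : ValuationSubring K) (hR : Rel u D) (hu : u ≠ 0) (hv : V.valuation (u : K) = 1)
    {ω : K} (hω : ω ^ (4 * u ^ 2) = 1) : V.valuation (Fh u D ω) = 1 := by
  apply val_eq_one_of_mul V (Fh_mem V hu hω) (Fh_mem V hu (pow_pred_pow hω))
  rw [Fh_mul hR hω, map_pow, hv, one_pow]

omit [CharZero K] in
lemma Fh_norm (hR : Rel u D) (hu : u ≠ 0) (φ : K →+* ℂ) {ω : K} (hω : ω ^ (4 * u ^ 2) = 1) :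
    ‖φ (Fh u D ω)‖ = u := by
  have hn : 4 * u ^ 2 ≠ 0 := by positivity
  have hφ : ∀ x : K, φ (Fh u D x) = Fh u D (φ x) := by
    intro x
    unfold Fh
    rw [map_div₀, map_ofNat φ 2]
    congr 1
    exact (aeval_algHom_apply φ.toIntAlgHom x _).symm
  have hconj : ∀ x : ℂ, (starRingEnd ℂ) (Fh u D x) = Fh u D ((starRingEnd ℂ) x) := by
    intro x
    unfold Fh
    rw [map_div₀, map_ofNat (starRingEnd ℂ) 2]
    congr 1
    exact (aeval_algHom_apply (starRingEnd ℂ).toIntAlgHom x _).symm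
  have hω' : (φ ω) ^ (4 * u ^ 2) = 1 := by rw [← map_pow, hω, map_one]
  have hnorm : ‖φ ω‖ = 1 := Complex.norm_eq_one_of_pow_eq_one hω' hn
  have hc : (starRingEnd ℂ) (φ ω) = (φ ω) ^ (4 * u ^ 2 - 1) := by
    have h1 : φ ω * (starRingEnd ℂ) (φ ω) = 1 := by
      rw [Complex.mul_conj, Complex.normSq_eq_norm_sq, hnorm]
      simp
    have h2 := mul_pow_pred hn hω'
    have h0 : φ ω ≠ 0 := left_ne_zero_of_mul_eq_one h1
    exact mul_left_cancel₀ h0 (h1.trans h2.symm)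
  have h3 := Fh_mul hR hω'
  rw [← hc, ← hconj, Complex.mul_conj, Complex.normSq_eq_norm_sq] at h3
  rw [hφ]
  have h4 : ‖Fh u D (φ ω)‖ ^ 2 = (u : ℝ) ^ 2 := by exact_mod_cast h3
  exact (pow_left_inj₀ (norm_nonneg _) (Nat.cast_nonneg u) two_ne_zero).mp h4

end basic

section lam

variable {K : Type*} [Field K] (V : ValuationSubring K) (ι : K)

/-- The image of `V[X]` under evaluation at the powers `ι ^ j`, `j < 4`. -/
noncomputable def Lam : Subring (Fin 4 → K) :=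
  (RingHom.pi fun j : Fin 4 => eval₂RingHom V.subtype (ι ^ (j : ℕ))).range

lemma Lam_aeval {ω : K} (hω : ω ∈ V) (f : ℤ[X]) :
    (fun j : Fin 4 => aeval (ι ^ (j : ℕ) * ω) f) ∈ Lam V ι := by
  refine ⟨aeval (C (⟨ω, hω⟩ : V) * X) f, ?_⟩
  funext j
  let ψ : V[X] →+* K := eval₂RingHom V.subtype (ι ^ (j : ℕ))
  have h5 := aeval_algHom_apply ψ.toIntAlgHom (C (⟨ω, hω⟩ : V) * X) f
  have h6 : ψ.toIntAlgHom (C (⟨ω, hω⟩ : V) * X) = ι ^ (j : ℕ) * ω := by
    change eval₂ V.subtype (ι ^ (j : ℕ)) (C (⟨ω, hω⟩ : V) * X) = _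
    rw [eval₂_mul, eval₂_C, eval₂_X, mul_comm]
    rfl
  rw [h6] at h5
  exact h5.symm

lemma Lam_const {c : K} (hc : c ∈ V) : (fun _ : Fin 4 => c) ∈ Lam V ι := by
  refine ⟨C (⟨c, hc⟩ : V), ?_⟩
  funext j
  change eval₂ V.subtype (ι ^ (j : ℕ)) (C (⟨c, hc⟩ : V)) = _
  rw [eval₂_C]
  rfl

lemma Lam_trace [CharZero K] (hι : ι ^ 4 = 1) {a : Fin 4 → K} (ha : a ∈ Lam V ι) :
    (∑ j, a j) / 4 ∈ V := by
  obtain ⟨r, rfl⟩ := ha
  induction r using Polynomial.induction_on' with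
  | add a b ha hb =>
    simp only [map_add, Pi.add_apply, Finset.sum_add_distrib, add_div]
    exact add_mem ha hb
  | monomial i c =>
    have h1 : ∀ j : Fin 4, (RingHom.pi fun j : Fin 4 => eval₂RingHom V.subtype (ι ^ (j : ℕ)))
        (monomial i c) j = (c : K) * (ι ^ i) ^ (j : ℕ) := by
      intro j
      change eval₂ V.subtype (ι ^ (j : ℕ)) (monomial i c) = _
      rw [eval₂_monomial, ← pow_mul, ← pow_mul, mul_comm i]
      rfl
    simp only [h1]
    rw [← Finset.mul_sum, Fin.sum_univ_eq_sum_range (fun j => (ι ^ i) ^ j) 4, ← aeval_geomT]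
    have h2 : (ι ^ i) ^ 4 = 1 := by rw [← pow_mul, mul_comm, pow_mul, hι, one_pow]
    by_cases h3 : ι ^ i = 1
    · rw [h3, geomT_one]
      have : (c : K) * ((4 : ℕ) : K) / 4 = c := by push_cast; ring
      rw [this]
      exact c.2
    · rw [geomT_of_ne_one h2 h3]
      simp

end lam

theorem odd_case_aux {K : Type*} [Field K] [NumberField K] {u : ℕ} (hu : Odd u) (hu1 : 1 < u)
    {D : ℤ[X]} (hR : Rel u D) (ξ : K) (hξ : IsPrimitiveRoot ξ (4 * u ^ 2)) : False := by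
  have hu0 : u ≠ 0 := by omega
  have hn : 4 * u ^ 2 ≠ 0 := by positivity
  set P := u.primeFactors with hP
  have hPp : ∀ p ∈ P, p.Prime := fun p hp => Nat.prime_of_mem_primeFactors hp
  have hPu : ∀ p ∈ P, p ∣ u := fun p hp => Nat.dvd_of_mem_primeFactors hp
  have hPn : ∀ p ∈ P, p ∣ 4 * u ^ 2 := fun p hp =>
    ((hPu p hp).trans (dvd_pow_self u two_ne_zero)).mul_left 4
  have hP2 : ∀ p ∈ P, Nat.Coprime p 2 := fun p hp =>
    Nat.Coprime.coprime_dvd_left (hPu p hp) (Nat.coprime_two_right.mpr hu)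
  obtain ⟨p₀, hp₀⟩ : P.Nonempty := Nat.nonempty_primeFactors.mpr hu1
  let ζ : ℕ → K := fun p => ξ ^ (4 * u ^ 2 / p)
  have hζ : ∀ p ∈ P, IsPrimitiveRoot (ζ p) p := fun p hp =>
    hξ.pow (Nat.pos_of_ne_zero hn) (Nat.div_mul_cancel (hPn p hp)).symm
  let ι : K := ξ ^ (u ^ 2)
  have hι : IsPrimitiveRoot ι 4 := hξ.pow (Nat.pos_of_ne_zero hn) (mul_comm _ _)
  let z : Finset ℕ → K := fun S => ∏ p ∈ S, ζ p
  -- every point considered is a root of unity of order dividing `4 * u ^ 2`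
  have hroot : ∀ (j : ℕ) (S : Finset ℕ), S ⊆ P → (ι ^ j * z S) ^ (4 * u ^ 2) = 1 := by
    intro j S hS
    rw [mul_pow, ← Finset.prod_pow, ← pow_mul, mul_comm j, pow_mul,
      (hι.pow_eq_one_iff_dvd _).mpr (dvd_mul_right 4 _), one_pow, one_mul]
    exact Finset.prod_eq_one fun p hp => ((hζ p (hS hp)).pow_eq_one_iff_dvd _).mpr (hPn p (hS hp))
  have hroot' : ∀ p ∈ P, ∀ (j : ℕ) (S : Finset ℕ), S ⊆ P.erase p →
      (ι ^ j * z S) ^ (ordCompl[p] (4 * u ^ 2)) = 1 := by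
    intro p hp j S hS
    have h4 : 4 ∣ ordCompl[p] (4 * u ^ 2) := by
      apply Nat.dvd_ordCompl_of_dvd_not_dvd (dvd_mul_right 4 _)
      apply (Nat.Prime.coprime_iff_not_dvd (hPp p hp)).mp
      exact Nat.Coprime.pow_right 2 (hP2 p hp)
    rw [mul_pow, ← Finset.prod_pow, ← pow_mul, mul_comm j, pow_mul,
      (hι.pow_eq_one_iff_dvd _).mpr h4, one_pow, one_mul]
    refine Finset.prod_eq_one fun q hq => ?_
    obtain ⟨hqp, hqP⟩ := Finset.mem_erase.mp (hS hq)
    apply ((hζ q hqP).pow_eq_one_iff_dvd _).mpr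
    apply Nat.dvd_ordCompl_of_dvd_not_dvd (hPn q hqP)
    intro hd
    exact hqp ((Nat.prime_dvd_prime_iff_eq (hPp p hp) (hPp q hqP)).mp hd).symm
  have hins : ∀ (p : ℕ) (j : ℕ) (S : Finset ℕ), S ⊆ P.erase p →
      ι ^ j * z (insert p S) = ι ^ j * z S * ζ p := by
    intro p j S hS
    have hpS : p ∉ S := fun h => Finset.notMem_erase p P (hS h)
    simp only [z]
    rw [Finset.prod_insert hpS]
    ring
  have hne : ∀ (j : ℕ) (S : Finset ℕ), S ⊆ P → S ≠ ∅ → ι ^ j * z S ≠ 1 := by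
    intro j S hS hS0 h1
    obtain ⟨p, hp⟩ := Finset.nonempty_iff_ne_empty.mpr hS0
    have hsub : S.erase p ⊆ P.erase p := Finset.erase_subset_erase p hS
    rw [← Finset.insert_erase hp, hins p j _ hsub] at h1
    have h2 := congrArg (fun x => x ^ (ordCompl[p] (4 * u ^ 2))) h1
    simp only [one_pow] at h2
    rw [mul_pow, hroot' p (hS hp) j _ hsub, one_mul, (hζ p (hS hp)).pow_eq_one_iff_dvd] at h2
    exact Nat.not_dvd_ordCompl (hPp p (hS hp)) hn h2
  let Δ : ℕ → K := fun j => ∏ S ∈ P.powerset, Fh u D (ι ^ j * z S) ^ ((-1 : ℤ) ^ S.card)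
  -- principal unit at the primes above the divisors of `u`
  have hpu : ∀ (V : ValuationSubring K), ∀ p ∈ P, V.valuation (p : K) < 1 → ∀ j,
      V.valuation (Δ j - 1) < 1 := by
    intro V p hp hv j
    apply alt_prod_induction P (fun S => Fh u D (ι ^ j * z S)) hp
      (fun x => V.valuation (x - 1) < 1) (by simp) (pu_mul V) (pu_inv V)
    intro S hS
    have hSP : S ⊆ P := hS.trans (Finset.erase_subset p P)
    have hF0 := Fh_ne_zero hR hu0 (hroot j S hSP)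
    have h0 : aeval (ι ^ j * z S) (geomT (4 * u ^ 2) - C 2 * D) ≠ 0 := by
      intro h
      apply hF0
      unfold Fh
      rw [h, zero_div]
    have hR' := hR
    unfold Rel at hR'
    have hdec := Nat.ordProj_mul_ordCompl_eq_self (4 * u ^ 2) p
    have h1 := ratio_pu V (k := (4 * u ^ 2).factorization p) (hPp p hp) hv
      (Nat.not_dvd_ordCompl (hPp p hp) hn) (ι ^ j * z S) (ζ p) (hroot' p hp j S hS)
      (hζ p hp).pow_eq_one (geomT (4 * u ^ 2) - C 2 * D)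
      ((geomT (4 * u ^ 2) - C 2 * D).comp (X ^ (4 * u ^ 2 - 1))) (by rw [hdec]; exact hR') h0
    simp only [hins p j S hS]
    unfold Fh
    rwa [div_div_div_cancel_right₀ two_ne_zero]
  have hint : ∀ j, IsIntegral ℤ (Δ j) := by
    intro j
    apply isIntegral_of_forall_valuationSubring
    intro V
    rw [← V.valuation_le_one_iff]
    apply le_of_eq
    by_cases hv : V.valuation (u : K) < 1
    · obtain ⟨p, hp, hpv⟩ := exists_prime_val_lt V u hu0 hv
      exact pu_val V (hpu V p hp hpv j)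
    · have hv1 : V.valuation (u : K) = 1 := le_antisymm (natCast_val_le V u) (not_lt.mp hv)
      simp only [Δ]
      rw [map_prod]
      refine Finset.prod_eq_one fun S hS => ?_
      rw [map_zpow₀, Fh_val V hR hu0 hv1 (hroot j S (Finset.mem_powerset.mp hS)), one_zpow]
  have hnorm : ∀ j, ∀ φ : K →+* ℂ, ‖φ (Δ j)‖ = 1 := by
    intro j φ
    apply alt_prod_induction P (fun S => Fh u D (ι ^ j * z S)) hp₀ (fun x => ‖φ x‖ = 1) (by simp)
    · intro a b ha hb
      rw [map_mul, norm_mul, ha, hb, one_mul]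
    · intro a ha
      rw [map_inv₀, norm_inv, ha, inv_one]
    · intro S hS
      have hSP : S ⊆ P := hS.trans (Finset.erase_subset p₀ P)
      have hSP' : insert p₀ S ⊆ P := Finset.insert_subset hp₀ hSP
      rw [map_div₀, norm_div, Fh_norm hR hu0 φ (hroot j _ hSP'), Fh_norm hR hu0 φ (hroot j _ hSP),
        div_self (Nat.cast_ne_zero.mpr hu0)]
  have hodd : ∀ j, ∃ M : ℕ, Odd M ∧ Δ j ^ M = 1 := by
    intro j
    obtain ⟨N, hN, hN1⟩ := NumberField.Embeddings.pow_eq_one_of_norm_eq_one K ℂ (hint j) (hnorm j)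
    obtain ⟨V, hV⟩ := exists_valuationSubring_lt (K := K) (hPp p₀ hp₀)
    have h2 : V.valuation (2 : K) = 1 := by
      have := val_eq_one_of_coprime V (hP2 p₀ hp₀) hV
      simpa using this
    exact odd_order V h2 _ (hpu V p₀ hp₀ hV j) N hN hN1
  obtain ⟨M, hM⟩ : ∃ M : ℕ, ∀ j : Fin 4, Δ j ^ (2 * M + 1) = 1 := by
    choose f hf1 hf2 using hodd
    have h1 : Odd (∏ j : Fin 4, f j) :=
      Finset.prod_induction _ Odd (fun a b ha hb => ha.mul hb) odd_one (fun j _ => hf1 j)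
    obtain ⟨M, hM⟩ := h1
    refine ⟨M, fun j => ?_⟩
    obtain ⟨t, ht⟩ := Finset.dvd_prod_of_mem (fun j : Fin 4 => f j) (Finset.mem_univ j)
    rw [← hM, ht, pow_mul, hf2, one_pow]
  -- the two-adic contradiction
  obtain ⟨V, hV⟩ := exists_valuationSubring_lt (K := K) Nat.prime_two
  have hvu : V.valuation (u : K) = 1 :=
    val_eq_one_of_coprime V (Nat.coprime_two_left.mpr hu) hV
  have huK : (u : K) ≠ 0 := Nat.cast_ne_zero.mpr hu0
  have huinv : ((u : K) ^ 2)⁻¹ ∈ V := by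
    rw [← V.valuation_le_one_iff, map_inv₀, map_pow, hvu]
    simp
  have hzV : ∀ S ⊆ P, z S ∈ V := by
    intro S hS
    have := hroot 0 S hS
    rw [pow_zero, one_mul] at this
    exact root_mem V hn this
  let b : Finset ℕ → Fin 4 → K := fun S j => (Fh u D (ι ^ (j : ℕ) * z S) ^ ((-1 : ℤ) ^ S.card))⁻¹
  have hb : ∀ S ∈ P.powerset.erase ∅, b S ∈ Lam V ι := by
    intro S hS
    obtain ⟨hS0, hSP⟩ := Finset.mem_erase.mp hS
    have hSP' := Finset.mem_powerset.mp hSP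
    rcases neg_one_pow_eq_or ℤ S.card with h | h
    · have e : b S = -((fun j : Fin 4 => aeval (ι ^ (j : ℕ) * z S)
          (D.comp (X ^ (4 * u ^ 2 - 1)))) * fun _ => ((u : K) ^ 2)⁻¹) := by
        funext j
        have h1 := hroot j S hSP'
        have h2 := Fh_mul hR h1
        have h3 : (ι ^ (j : ℕ) * z S) ^ (4 * u ^ 2 - 1) ≠ 1 := by
          intro h4
          have h5 := mul_pow_pred hn h1
          rw [h4, mul_one] at h5
          exact hne j S hSP' hS0 h5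
        rw [Fh_of_ne_one (pow_pred_pow h1) h3] at h2
        have h6 := Fh_ne_zero hR hu0 h1
        simp only [b, h, zpow_one, Pi.neg_apply, Pi.mul_apply, aeval_comp, map_pow, aeval_X]
        field_simp
        linear_combination -h2
      rw [e]
      exact neg_mem (mul_mem (Lam_aeval V ι (hzV S hSP') _) (Lam_const V ι huinv))
    · have e : b S = -(fun j : Fin 4 => aeval (ι ^ (j : ℕ) * z S) D) := by
        funext j
        simp only [b, h, zpow_neg, zpow_one, inv_inv, Pi.neg_apply]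
        exact Fh_of_ne_one (hroot j S hSP') (hne j S hSP' hS0)
      rw [e]
      exact neg_mem (Lam_aeval V ι (hzV S hSP') _)
  have hW : (∏ S ∈ P.powerset.erase ∅, b S) ∈ Lam V ι := prod_mem hb
  let y : Fin 4 → K := fun j => Fh u D (ι ^ (j : ℕ))
  have hroot0 : ∀ j : ℕ, (ι ^ j) ^ (4 * u ^ 2) = 1 := by
    intro j
    have := hroot j ∅ (Finset.empty_subset _)
    simpa [z] using this
  have hy : ∀ j : Fin 4, y j = Δ j * (∏ S ∈ P.powerset.erase ∅, b S) j := by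
    intro j
    simp only [Δ, y, b, Finset.prod_apply]
    rw [← Finset.mul_prod_erase _ _ (Finset.empty_mem_powerset P), mul_assoc,
      ← Finset.prod_mul_distrib, Finset.prod_eq_one]
    · simp [z]
    · intro S hS
      apply mul_inv_cancel₀
      apply zpow_ne_zero
      exact Fh_ne_zero hR hu0 (hroot j S (Finset.mem_powerset.mp (Finset.mem_of_mem_erase hS)))
  let y2 : Fin 4 → K := fun j => aeval (ι ^ (j : ℕ) * 1)
    ((C ((u : ℤ) ^ 2) * geomT (4 * u ^ 2) - geomT (4 * u ^ 2) * D + D ^ 2).comp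
      (X ^ (4 * u ^ 2 - 1)))
  have hy2 : y2 ∈ Lam V ι := Lam_aeval V ι (one_mem V) _
  have hyL : y ∈ Lam V ι := by
    have e : y = (∏ S ∈ P.powerset.erase ∅, b S) ^ (2 * M + 1) *
        (y2 * (fun _ => ((u : K) ^ 2)⁻¹) ^ 2) ^ M := by
      funext j
      have h1 : y j ^ (2 * M + 1) = ((∏ S ∈ P.powerset.erase ∅, b S) j) ^ (2 * M + 1) := by
        rw [hy j, mul_pow, hM j, one_mul]
      have h2 : y2 j = Fh u D ((ι ^ (j : ℕ)) ^ (4 * u ^ 2 - 1)) ^ 2 := by
        rw [Fh_sq (pow_pred_pow (hroot0 j))]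
        simp only [y2]
        rw [aeval_comp, map_pow, aeval_X, mul_one]
      have h3 : y j * Fh u D ((ι ^ (j : ℕ)) ^ (4 * u ^ 2 - 1)) = (u : K) ^ 2 :=
        Fh_mul hR (hroot0 j)
      have h4 : y j ^ 2 * (y2 j * (((u : K) ^ 2)⁻¹) ^ 2) = 1 := by
        rw [h2, ← mul_assoc, ← mul_pow, h3, ← mul_pow, mul_inv_cancel₀ (pow_ne_zero 2 huK), one_pow]
      simp only [Pi.mul_apply, Pi.pow_apply]
      rw [← h1, pow_succ' (y j), pow_mul (y j), mul_assoc, ← mul_pow, h4, one_pow, mul_one]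
    rw [e]
    exact mul_mem (pow_mem hW _) (pow_mem (mul_mem hy2 (pow_mem (Lam_const V ι huinv) _)) _)
  have hd : (fun j : Fin 4 => aeval (ι ^ (j : ℕ) * 1) D) ∈ Lam V ι := Lam_aeval V ι (one_mem V) _
  have htr := Lam_trace V ι hι.pow_eq_one (add_mem hyL hd)
  have hsum : (∑ j : Fin 4, (y + fun j : Fin 4 => aeval (ι ^ (j : ℕ) * 1) D) j) / 4 =
      (u : K) ^ 2 / 2 := by
    have h1 : ∀ j : Fin 4, (y + fun j : Fin 4 => aeval (ι ^ (j : ℕ) * 1) D) j =
        aeval (ι ^ (j : ℕ)) (geomT (4 * u ^ 2)) / 2 := by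
      intro j
      simp only [y, Pi.add_apply, Fh_eq, mul_one]
      ring
    simp only [h1]
    rw [Fin.sum_univ_eq_sum_range (fun j => aeval (ι ^ j) (geomT (4 * u ^ 2)) / 2) 4,
      Finset.sum_eq_single 0]
    · rw [pow_zero, geomT_one]
      push_cast
      ring
    · intro j hj hj0
      rw [geomT_of_ne_one (hroot0 j), zero_div]
      exact hι.pow_ne_one_of_pos_of_lt hj0 (Finset.mem_range.mp hj)
    · intro h
      simp at h
  rw [hsum, ← V.valuation_le_one_iff, map_div₀, map_pow, hvu, one_pow] at htr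
  have h20 : V.valuation (2 : K) ≠ 0 := by simp
  have hV' : V.valuation (2 : K) < 1 := by simpa using hV
  rw [div_le_one₀ (zero_lt_iff.mpr h20)] at htr
  exact absurd hV' (not_lt.mpr htr)

theorem odd_case {u : ℕ} (hu : Odd u) (hu1 : 1 < u) {D : ℤ[X]} (hR : Rel u D) : False := by
  have hn : 4 * u ^ 2 ≠ 0 := by positivity
  have : NeZero (4 * u ^ 2) := ⟨hn⟩
  obtain ⟨ξ, hξ⟩ : ∃ ξ : CyclotomicField (4 * u ^ 2) ℚ, IsPrimitiveRoot ξ (4 * u ^ 2) :=
    (CyclotomicField.isCyclotomicExtension (4 * u ^ 2) ℚ).exists_isPrimitiveRoot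
      (Set.mem_singleton _) hn
  exact odd_case_aux hu hu1 hR ξ hξ

end Vale.Agent.P033
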