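import Mathlib
import Vale.Agent.P033.Odd

/-!
From the Hadamard relation to the polynomial relation, and the conclusion.
-/

namespace Vale.Agent.P033

open Polynomial

lemma geom_mul_aeval {A : Type*} [CommRing A] {ω : A} (t : A) (ht : t * (ω - 1) = 0)
    (f : ℤ[X]) : t * aeval ω f = t * ((f.eval 1 : ℤ) : A) := by
  have h1 : ω - 1 ∣ aeval ω f - aeval (1 : A) f := by
    rw [aeval_def, aeval_def, ← eval_map, ← eval_map]
    exact sub_dvd_eval_sub _ _ _
  obtain ⟨c, hc⟩ := h1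
  have h2 : aeval (1 : A) f = ((f.eval 1 : ℤ) : A) := by
    have := aeval_algebraMap_apply_eq_algebraMap_eval (A := A) (1 : ℤ) f
    simpa using this
  rw [← h2]
  linear_combination t * hc + c * ht

lemma geom_inv {A : Type*} [CommRing A] {n : ℕ} (hn : n ≠ 0) {ω : A} (hω : ω ^ n = 1) :
    ∑ i ∈ Finset.range n, (ω ^ (n - 1)) ^ i = ∑ i ∈ Finset.range n, ω ^ i := by
  have h1 : ω * ω ^ (n - 1) = 1 := by
    rw [← pow_succ', Nat.sub_add_cancel (Nat.pos_of_ne_zero hn), hω]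
  have h2 : ∀ i ∈ Finset.range n, (ω ^ (n - 1)) ^ i = ω * ω ^ (n - 1 - i) := by
    intro i hi
    have hi' := Finset.mem_range.mp hi
    have h3 : ω ^ i * (ω ^ (n - 1)) ^ i = 1 := by rw [← mul_pow, h1, one_pow]
    have h4 : ω ^ i * (ω * ω ^ (n - 1 - i)) = 1 := by
      rw [← pow_succ', ← pow_add, ← hω]
      congr 1
      omega
    linear_combination (-((ω ^ (n - 1)) ^ i)) * h4 + (ω * ω ^ (n - 1 - i)) * h3
  rw [Finset.sum_congr rfl h2, ← Finset.mul_sum, Finset.sum_range_reflect (fun i => ω ^ i) n]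
  have h5 := mul_geom_sum ω n
  rw [hω, sub_self] at h5
  linear_combination h5

theorem even_case {u : ℕ} (hu0 : u ≠ 0) (hu : Even u) {D : ℤ[X]} (hR : Rel u D) : False := by
  have hn : 4 * u ^ 2 ≠ 0 := by positivity
  obtain ⟨c, w, hw, rfl⟩ := Nat.exists_eq_two_pow_mul_odd hu0
  have hc : c ≠ 0 := by
    rintro rfl
    rw [pow_zero, one_mul] at hu
    exact Nat.not_even_iff_odd.mpr hw hu
  set u := 2 ^ c * w with hudef
  have huZ : (u : ℤ) = 2 ^ c * w := by rw [hudef]; push_cast; ring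
  have h1 := Fh_mul (K := ℚ) hR (one_pow _)
  rw [one_pow, Fh_one] at h1
  have h2 : aeval (1 : ℚ) (C (2 * (u : ℤ) ^ 2) - D) = ((2 * (u : ℤ) ^ 2 - D.eval 1 : ℤ) : ℚ) := by
    have := aeval_algebraMap_apply_eq_algebraMap_eval (A := ℚ) (1 : ℤ) (C (2 * (u : ℤ) ^ 2) - D)
    simpa using this
  rw [h2] at h1
  have h3 : (2 * (u : ℤ) ^ 2 - D.eval 1) ^ 2 = (u : ℤ) ^ 2 := by
    rw [sq]
    exact_mod_cast h1
  obtain ⟨ε, hε, hk⟩ : ∃ ε : ℤ, Odd ε ∧ D.eval 1 = 2 * (u : ℤ) ^ 2 + ε * u := by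
    rcases sq_eq_sq_iff_eq_or_eq_neg.mp h3 with h | h
    · exact ⟨-1, odd_neg_one, by linear_combination -h⟩
    · exact ⟨1, odd_one, by linear_combination -h⟩
  have hq : 4 * u ^ 2 = 2 ^ (2 * c + 2) * w ^ 2 := by rw [hudef]; ring
  have hwZ : Odd (w : ℤ) := by exact_mod_cast hw
  have huE : Even (u : ℤ) := by exact_mod_cast hu
  apply descent (4 * u ^ 2 - 1) ((w : ℤ) ^ 2) ((w : ℤ) ^ 3 * (u + ε)) hwZ.pow
    (hwZ.pow.mul (huE.add_odd hε)) c (2 * c + 2) (by omega)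
    (by rw [Nat.sub_add_cancel (Nat.pos_of_ne_zero hn), hq]; exact dvd_mul_right _ _) D
  apply monic_dvd_of_dvd_C_mul (monic_X_pow_sub_one (by positivity)) (a := 4) (by norm_num)
  apply dvd_of_forall_aeval
  intro A _ ω hω
  have hωn : ω ^ (4 * u ^ 2) = 1 := by rw [hq, pow_mul, hω, one_pow]
  have h4 := aeval_eq_zero_of_dvd' ω hωn hR
  simp only [map_sub, map_add, map_mul, aeval_comp, map_pow, aeval_X, aeval_C_int, aeval_geomT,
    geom_inv hn hωn] at h4 ⊢
  have h5 := geom_mul_rep ω hω (w ^ 2)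
  rw [← hq] at h5
  set t := ∑ i ∈ Finset.range (4 * u ^ 2), ω ^ i with ht
  have ht0 : t * (ω - 1) = 0 := by
    have h6 := mul_geom_sum ω (4 * u ^ 2)
    rw [hωn, sub_self] at h6
    rw [mul_comm]
    exact h6
  have h6 := geom_mul_aeval t ht0 D
  have h7 := geom_mul_aeval t ht0 (D.comp (X ^ (4 * u ^ 2 - 1)))
  have h8 := geom_mul_aeval t ht0 (geomT (4 * u ^ 2))
  rw [aeval_comp, map_pow, aeval_X, eval_comp, eval_pow, eval_X, one_pow] at h7
  have h9 : (geomT (4 * u ^ 2)).eval 1 = 4 * (u : ℤ) ^ 2 := by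
    simp [geomT, eval_finsetSum]
  rw [aeval_geomT, ← ht, h9] at h8
  rw [hk] at h6 h7
  have huA : (u : A) = 2 ^ c * w := by rw [hudef]; push_cast; ring
  have h4c : (4 : A) ^ c = (2 ^ c) ^ 2 := by
    rw [← pow_mul, mul_comm, pow_mul]
    norm_num
  push_cast at h4 h5 h6 h7 h8 ⊢
  rw [h4c]
  rw [huA] at h4 h6 h7 h8 ⊢
  linear_combination h4 - h8 + 2 * h6 + 2 * h7 +
    (4 * (2 ^ c * (w : A)) ^ 2 + 4 * (ε : A) * (2 ^ c * w)) * h5

theorem rel_case {u : ℕ} (hu0 : u ≠ 0) {D : ℤ[X]} (hR : Rel u D) : u = 1 := by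
  by_contra h1
  rcases Nat.even_or_odd u with h | h
  · exact even_case hu0 h hR
  · exact odd_case h (by omega) hR

lemma pow_val_sub {A : Type*} [CommRing A] {n : ℕ} [NeZero n] {ω : A} (hω : ω ^ n = 1)
    (i j : Fin n) : ω ^ (i : ℕ) * (ω ^ (n - 1)) ^ (j : ℕ) = ω ^ ((i - j : Fin n) : ℕ) := by
  have h1 : ω * ω ^ (n - 1) = 1 := by
    rw [← pow_succ', Nat.sub_add_cancel (Nat.pos_of_ne_zero (NeZero.ne n)), hω]
  have h2 : ω ^ (j : ℕ) * (ω ^ (n - 1)) ^ (j : ℕ) = 1 := by rw [← mul_pow, h1, one_pow]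
  have h3 : ω ^ ((i - j : Fin n) : ℕ) * ω ^ (j : ℕ) = ω ^ (i : ℕ) := by
    rw [← pow_add]
    conv_rhs => rw [← sub_add_cancel i j, Fin.val_add, ← pow_eq_pow_mod _ hω]
  linear_combination (-((ω ^ (n - 1)) ^ (j : ℕ))) * h3 + ω ^ ((i - j : Fin n) : ℕ) * h2

theorem seq_main {n : ℕ} [NeZero n] (a : Fin n → ℤ) (ha : ∀ j, a j = 1 ∨ a j = -1)
    (hP : ∀ t : Fin n, ∑ l, a (l + t) * a l = if t = 0 then (n : ℤ) else 0) : n = 1 ∨ n = 4 := by
  have hn : n ≠ 0 := NeZero.ne n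
  let h : ℤ[X] := ∑ j : Fin n, monomial (j : ℕ) (a j)
  let D : ℤ[X] := ∑ j : Fin n, monomial (j : ℕ) ((1 - a j) / 2)
  have hD : geomT n - C 2 * D = h := by
    simp only [geomT, D, h]
    rw [← Fin.sum_univ_eq_sum_range (fun i => (X : ℤ[X]) ^ i) n, Finset.mul_sum,
      ← Finset.sum_sub_distrib]
    refine Finset.sum_congr rfl fun j _ => ?_
    rw [C_mul_monomial, ← monomial_one_right_eq_X_pow, ← map_sub]
    congr 1
    rcases ha j with h1 | h1 <;> rw [h1] <;> norm_num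
  have hrel : (X ^ n - 1 : ℤ[X]) ∣ h * h.comp (X ^ (n - 1)) - C (n : ℤ) := by
    apply dvd_of_forall_aeval
    intro A _ ω hω
    rw [map_sub, map_mul, aeval_comp, map_pow, aeval_X, aeval_C_int]
    simp only [h, map_sum, aeval_monomial, algebraMap_int_eq, eq_intCast]
    rw [Finset.sum_mul_sum, Finset.sum_comm]
    have h1 : ∀ l : Fin n, ∑ i : Fin n, ((a i : A) * ω ^ (i : ℕ)) * ((a l : A) *
        (ω ^ (n - 1)) ^ (l : ℕ)) = ∑ t : Fin n, ((a (l + t) * a l : ℤ) : A) * ω ^ (t : ℕ) := by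
      intro l
      rw [← Equiv.sum_comp (Equiv.addLeft l)]
      refine Finset.sum_congr rfl fun t _ => ?_
      have h2 := pow_val_sub hω (l + t) l
      rw [add_sub_cancel_left] at h2
      simp only [Equiv.coe_addLeft]
      push_cast
      linear_combination (a (l + t) : A) * (a l : A) * h2
    simp only [h1]
    rw [Finset.sum_comm]
    have h3 : ∀ t : Fin n, ∑ l : Fin n, ((a (l + t) * a l : ℤ) : A) * ω ^ (t : ℕ) =
        if t = 0 then (n : A) else 0 := by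
      intro t
      rw [← Finset.sum_mul, ← Int.cast_sum, hP t]
      split_ifs with h4
      · simp [h4]
      · simp
    simp only [h3]
    simp
  by_cases hn1 : n = 1
  · exact Or.inl hn1
  right
  have hsq : (h.eval 1) ^ 2 = n := by
    have h1 := aeval_eq_zero_of_dvd' (1 : ℤ) (one_pow _) hrel
    rw [map_sub, map_mul, aeval_comp, map_pow, aeval_X, aeval_C_int, one_pow] at h1
    simp only [coe_aeval_eq_eval, Int.cast_id] at h1
    linear_combination h1
  have heven : Even (n : ℤ) := by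
    have h2 : 1 < n := by omega
    have ht : (⟨1, h2⟩ : Fin n) ≠ 0 := by
      intro h3
      have := congrArg Fin.val h3
      simp at this
    have h1 := hP ⟨1, h2⟩
    rw [if_neg ht] at h1
    have h3 : Even (∑ l : Fin n, (1 - a (l + ⟨1, h2⟩) * a l)) := by
      apply Finset.even_sum
      intro l _
      rcases ha (l + ⟨1, h2⟩) with h4 | h4 <;> rcases ha l with h5 | h5 <;> rw [h4, h5] <;> decide
    rw [Finset.sum_sub_distrib, h1] at h3
    simpa using h3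
  rw [← hsq] at heven
  obtain ⟨r, hr⟩ : Even (h.eval 1) := (Int.even_pow.mp heven).1
  have hnu : n = 4 * r.natAbs ^ 2 := by
    have h1 : (n : ℤ) = 4 * ((r.natAbs : ℕ) : ℤ) ^ 2 := by
      rw [Int.natAbs_sq, ← hsq, hr]
      ring
    exact_mod_cast h1
  have hu0 : r.natAbs ≠ 0 := by
    intro h0
    rw [h0] at hnu
    exact hn (by simpa using hnu)
  have hR : Rel r.natAbs D := by
    unfold Rel
    rw [← hnu, hD]
    exact hrel
  rw [hnu, rel_case hu0 hR]
  norm_num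

end Vale.Agent.P033
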